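import Vale.Agent.P219.Relax.Rigid.Full
import Vale.Agent.P219.Relax.Four.Strict
import Vale.Agent.P219.Relax.Five.Final
import Vale.Agent.P219.Relax.Five.Strict
import Vale.Agent.P219.Relax.Six.CandB.Solution
import Vale.Agent.P219.Bend.Hyperbolic

/-!
# P219: dimensions four to six against every negative curvature bound, with the equality case
-/

noncomputable section

open MeasureTheory Matrix

namespace Vale.Agent.Results.P219.SharpAllCurvatureLowDim

open Vale.Agent.P219.CH Vale.Agent.P219.CH.Bend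

/-- In dimensions four, five and six, with curvature at most `-b ^ 2`, every domain has at least the
boundary area of the model ball of its volume, and equality holds only for copies of that ball. -/
theorem result :
    (∀ n : ℕ, n = 4 ∨ n = 5 ∨ n = 6 →
      ∀ (G : (Fin n → ℝ) → Matrix (Fin n) (Fin n) ℝ) (D : (Fin n → ℝ) → (Fin n → ℝ) → ℝ),
      IsCH G D → ∀ b : ℝ, 0 < b → BendCH G D b →
      ∀ (Ω : Set (Fin n → ℝ)) (A : ℝ), MeasurableSet Ω → Bornology.IsBounded Ω →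
        PerimeterLE G Ω A →
        ∃ r, 0 ≤ r ∧ unitBall n * modelVol n b r = volG G Ω ∧
          unitBall n * modelArea n b r ≤ A ∧
          (0 < volG G Ω → A ≤ unitBall n * modelArea n b r →
            ∃ (W : Set (Fin n → ℝ)) (Φ : (Fin n → ℝ) → (Fin n → ℝ)), IsOpen W ∧ ContDiff ℝ 1 Φ ∧
              Function.Bijective Φ ∧ Φ '' W = {z | z ⬝ᵥ z < sn b r ^ 2} ∧
              (∀ x ∈ W, ∀ v, fderiv ℝ Φ x v ⬝ᵥ fderiv ℝ Φ x v -
                  b ^ 2 * (Φ x ⬝ᵥ fderiv ℝ Φ x v) ^ 2 / (1 + b ^ 2 * (Φ x ⬝ᵥ Φ x)) =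
                v ⬝ᵥ (G x *ᵥ v)) ∧
              Ω =ᵐ[volume] W ∧ (IsOpen Ω → interior (closure Ω) = Ω → Ω = W))) ∧
    (∀ n : ℕ, n = 4 ∨ n = 5 ∨ n = 6 → ∀ b : ℝ, StrictMonoOn (modelVol n b) (Set.Ici 0)) ∧
    ∀ n : ℕ, n = 4 ∨ n = 5 ∨ n = 6 → ∀ b : ℝ, 0 < b → ∃ (G : (Fin n → ℝ) → Matrix (Fin n) (Fin n) ℝ)
      (D : (Fin n → ℝ) → (Fin n → ℝ) → ℝ), IsCH G D ∧ BendCH G D b := by
  refine ⟨?_, fun n hn b => strictMonoOn_modelVol (by omega) b,
    fun _ _ _ hb => ⟨_, _, isCH_hyp hb.ne'⟩⟩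
  rintro n (rfl | rfl | rfl) G D h b hb hbend Ω A hΩ hΩb hA
  · exact Relax.Rigid.sharp_rigid 4 (by norm_num) Relax.Four.cert_four Relax.Four.strictCert
      G D h b hb hbend Ω A hΩ hΩb hA
  · exact Relax.Rigid.sharp_rigid 5 (by norm_num) Relax.Five.cert_five
      Relax.Five.Strictly.strictCert G D h b hb hbend Ω A hΩ hΩb hA
  · exact Relax.Rigid.sharp_rigid 6 (by norm_num) Relax.Six.CandB.cert_six
      Relax.Six.CandB.strictCert_six G D h b hb hbend Ω A hΩ hΩb hA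

end Vale.Agent.Results.P219.SharpAllCurvatureLowDim
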