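import Vale.Agent.P219.Five.Main
import Vale.Agent.P219.Six.Main
import Vale.Agent.P219.Six.Euclid
import Vale.Agent.P219.Gen.Main
import Vale.Agent.P219.Rigid.Main
import Vale.Agent.P219.Rigid.Dim
import Vale.Agent.P219.Rigid.Six
import Vale.Agent.P219.Rigid.Seven
import Vale.Agent.P219.Rigid.Eight
import Vale.Agent.P219.Rigid.Nine
import Vale.Agent.P219.Rigid.Ten
import Vale.Agent.P219.Rigid.Eleven
import Vale.Agent.P219.Flat.Twelve.Cert
import Vale.Agent.P219.Flat.Thirteen.Cert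
import Vale.Agent.P219.Flat.Fourteen.Cert
import Vale.Agent.P219.Flat.Strict.Main

/-!
# P219: the Cartan-Hadamard conjecture in dimensions five to fourteen, with its equality case
-/

noncomputable section

open MeasureTheory Matrix

namespace Vale.Agent.Results.P219.SharpRigidDimensions

open Vale.Agent.P219.CH

/-- On every Cartan-Hadamard manifold of dimension five to fourteen the Euclidean isoperimetric
inequality holds with the sharp constant and only flat balls attain it. -/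
theorem result :
    (∀ n : ℕ, n = 5 ∨ n = 6 ∨ n = 7 ∨ n = 8 ∨ n = 9 ∨ n = 10 ∨ n = 11 ∨ n = 12 ∨ n = 13 ∨ n = 14 →
      ∀ (G : (Fin n → ℝ) → Matrix (Fin n) (Fin n) ℝ)
      (D : (Fin n → ℝ) → (Fin n → ℝ) → ℝ),
      IsCH G D → ∀ (Ω : Set (Fin n → ℝ)) (A : ℝ), MeasurableSet Ω → Bornology.IsBounded Ω →
        PerimeterLE G Ω A →
        (n : ℝ) * Bend.unitBall n ^ (1 / n : ℝ) * volG G Ω ^ (((n : ℝ) - 1) / n) ≤ A ∧
        (0 < volG G Ω →
          A ≤ (n : ℝ) * Bend.unitBall n ^ (1 / n : ℝ) * volG G Ω ^ (((n : ℝ) - 1) / n) →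
          ∃ (W : Set (Fin n → ℝ)) (Φ : (Fin n → ℝ) → (Fin n → ℝ)), IsOpen W ∧ ContDiff ℝ 1 Φ ∧
            Function.Bijective Φ ∧
            Φ '' W = {z | z ⬝ᵥ z < (volG G Ω / Bend.unitBall n) ^ (2 / n : ℝ)} ∧
            (∀ x ∈ W, ∀ v, fderiv ℝ Φ x v ⬝ᵥ fderiv ℝ Φ x v = v ⬝ᵥ (G x *ᵥ v)) ∧
            Ω =ᵐ[volume] W ∧ (IsOpen Ω → interior (closure Ω) = Ω → Ω = W))) ∧
    ∀ n : ℕ, n = 5 ∨ n = 6 ∨ n = 7 ∨ n = 8 ∨ n = 9 ∨ n = 10 ∨ n = 11 ∨ n = 12 ∨ n = 13 ∨ n = 14 →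
      ∃ (G : (Fin n → ℝ) → Matrix (Fin n) (Fin n) ℝ) (D : (Fin n → ℝ) → (Fin n → ℝ) → ℝ),
        IsCH G D := by
  refine ⟨?_, fun n _ => ⟨_, _, isCH_flat n⟩⟩
  intro n hn G D h Ω A hΩ hb hA
  obtain ⟨e, he⟩ := Six.exists_isExp h
  rcases hn with rfl | rfl | rfl | rfl | rfl | rfl | rfl | rfl | rfl | rfl
  · refine ⟨?_, fun hV hAV => ?_⟩
    · have := Five.sharpFive G D e h he Ω A hΩ hb hA
      rw [← Five.unitBall_five] at this
      norm_num at this ⊢
      exact this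
    · norm_num at hAV ⊢
      have := Rigid.rigidFive h Ω A hΩ hb hA hV (by norm_num; exact hAV)
      norm_num at this
      exact this
  · refine ⟨?_, Rigid.rigid_of_cert 6 (by norm_num) Rigid.InSix.strict_six G D h Ω A hΩ hb hA⟩
    have := Six.sharpSix G D e h he Ω A hΩ hb hA
    rw [← Six.unitBall_six] at this
    norm_num at this ⊢
    exact this
  · exact ⟨Gen.sharpDim_of_cert 7 (by norm_num) Rigid.InSeven.strict_seven.cert G D h Ω A hΩ hb hA,
      Rigid.rigid_of_cert 7 (by norm_num) Rigid.InSeven.strict_seven G D h Ω A hΩ hb hA⟩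
  · exact ⟨Gen.sharpDim_of_cert 8 (by norm_num) Rigid.InEight.strict_eight.cert G D h Ω A hΩ hb hA,
      Rigid.rigid_of_cert 8 (by norm_num) Rigid.InEight.strict_eight G D h Ω A hΩ hb hA⟩
  · exact ⟨Gen.sharpDim_of_cert 9 (by norm_num) Rigid.InNine.strict_nine.cert G D h Ω A hΩ hb hA,
      Rigid.rigid_of_cert 9 (by norm_num) Rigid.InNine.strict_nine G D h Ω A hΩ hb hA⟩
  · exact ⟨Gen.sharpDim_of_cert 10 (by norm_num) Rigid.InTen.strict_ten.cert G D h Ω A hΩ hb hA,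
      Rigid.rigid_of_cert 10 (by norm_num) Rigid.InTen.strict_ten G D h Ω A hΩ hb hA⟩
  · exact ⟨Gen.sharpDim_of_cert 11 (by norm_num) Rigid.InEleven.strict_eleven.cert G D h Ω A hΩ hb hA,
      Rigid.rigid_of_cert 11 (by norm_num) Rigid.InEleven.strict_eleven G D h Ω A hΩ hb hA⟩
  · exact ⟨Flat.Twelve.sharp_twelve G D h Ω A hΩ hb hA,
      Flat.Strict.rigidDim_of_strict 12 (by norm_num) Flat.Twelve.strict_twelve G D h Ω A hΩ hb hA⟩
  · exact ⟨Flat.Thirteen.sharp_thirteen G D h Ω A hΩ hb hA,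
      Flat.Strict.rigidDim_of_strict 13 (by norm_num) Flat.Thirteen.strict_thirteen
        G D h Ω A hΩ hb hA⟩
  · exact ⟨Flat.Fourteen.sharp_fourteen G D h Ω A hΩ hb hA,
      Flat.Fourteen.rigid_fourteen G D h Ω A hΩ hb hA⟩

end Vale.Agent.Results.P219.SharpRigidDimensions
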