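import Vale.Agent.P219.Bend.Euclid
import Vale.Agent.P219.Bend.Hyperbolic
import Vale.Agent.P219.Bend.Shift
import Vale.Agent.P219.Bend.LowerS
import Vale.Agent.P219.AllDomains

/-!
# P219: the generalised Cartan-Hadamard inequality up to `1 - 2 / n` in every dimension
-/

noncomputable section

open MeasureTheory

namespace Vale.Agent.Results.P219.SharpUpToCH

open Vale.Agent.P219.CH Vale.Agent.P219.CH.Bend

/-- On every Cartan-Hadamard manifold with curvature at most `-b ^ 2` the isoperimetric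
inequality of the space form holds up to the factor `1 - 2 / n`. -/
theorem result :
    (∀ n : ℕ, 2 ≤ n → ∀ (G : (Fin n → ℝ) → Matrix (Fin n) (Fin n) ℝ)
      (D : (Fin n → ℝ) → (Fin n → ℝ) → ℝ), IsCH G D →
      ∀ (Ω : Set (Fin n → ℝ)) (A : ℝ), MeasurableSet Ω → Bornology.IsBounded Ω →
        PerimeterLE G Ω A →
        max (3 / 4) (Real.exp (-1 / (n : ℝ))) * ((n : ℝ) * unitBall n ^ (1 / n : ℝ))
            * volG G Ω ^ (((n : ℝ) - 1) / n) ≤ A ∧
        ∀ b : ℝ, 0 ≤ b → BendCH G D b →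
          ∃ r, 0 ≤ r ∧ unitBall n * modelVol n b r = volG G Ω ∧
            max (3 / 5) (1 - 2 / (n : ℝ)) * (unitBall n * modelArea n b r) ≤ A) ∧
    (∀ n : ℕ, 2 ≤ n → ∀ b : ℝ, StrictMonoOn (modelVol n b) (Set.Ici 0)) ∧
    ∀ (n : ℕ) (b : ℝ), 0 ≤ b → ∃ (G : (Fin n → ℝ) → Matrix (Fin n) (Fin n) ℝ)
      (D : (Fin n → ℝ) → (Fin n → ℝ) → ℝ), IsCH G D ∧ BendCH G D b := by
  refine ⟨fun n hn G D h Ω A hΩ hΩb hA => ⟨?_, fun b hb0 hb => ?_⟩, fun _ hn b => strictMonoOn_modelVol (by omega) b, fun n b hb => ?_⟩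
  · have h0 : 0 ≤ volG G Ω ^ (((n : ℝ) - 1) / n) := Real.rpow_nonneg (setIntegral_nonneg hΩ fun y _ => (h.dens_pos y).le) _
    rcases max_cases (3 / 4 : ℝ) (Real.exp (-1 / (n : ℝ))) with ⟨e, -⟩ | ⟨e, -⟩ <;> rw [e]
    · exact (mul_le_mul_of_nonneg_right (three_quarters_le_lam hn) h0).trans
        (isoperimetricCH n hn G D h Ω A hΩ hΩb hA)
    · exact euclidean_factor_of_pins goodShiftPinS lowerPinS hn h hΩ hΩb hA
  · rcases max_cases (3 / 5 : ℝ) (1 - 2 / (n : ℝ)) with ⟨e, -⟩ | ⟨e, -⟩ <;> rw [e]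
    · exact h.three_fifths hn hb0 (hb.bent h) hΩ hΩb hA
    · exact generalisedCHUpTo_of_pins goodShiftPinS lowerPinS n hn G D h b hb0 hb Ω A hΩ hΩb hA
  · rcases eq_or_ne b 0 with rfl | hb'
    · exact ⟨_, _, isCH_flat n, bendCH_zero (isCH_flat n)⟩
    · exact ⟨_, _, isCH_hyp hb'⟩

end Vale.Agent.Results.P219.SharpUpToCH
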