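import Vale.Agent.P219.Defs
import Vale.Agent.P219.AllDomains

/-!
# Sharp isoperimetric inequality for coordinate-symmetric domains in conformally flat metrics
-/

namespace Vale.Agent.Results.P219.SymmetricDomains

open MeasureTheory Set Filter Topology Vale.Agent.P219

/-- In metrics `w² |dx|²` with `x_i ∂_i w ≥ 0` the sharp Euclidean Sobolev and isoperimetric
inequalities hold for coordinate-symmetric functions and sets; likewise for radial factors on
balls, and up to `2^(-1/n)` for arbitrary sets there. -/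
theorem result : SobolevPart ∧ IsoperimetricPart ∧ RadialPart ∧ RadialAllPart := by
  refine ⟨?_, ?_, ?_, ?_⟩
  · intro n hn w u hw hu huc hue
    obtain ⟨hw1, hw0, hwe, hwm⟩ := hw
    exact sobolev_euclidean hn hw1 hw0 (fun i x => by rw [flipE_apply]; exact hwe i x) hwm hu huc
      fun i x => by rw [flipE_apply]; exact hue i x
  · intro n hn w Ω A hw hΩ hΩb hΩs hP
    obtain ⟨hw1, hw0, hwe, hwm⟩ := hw
    obtain ⟨v, hv, hl, hA⟩ := hP
    exact isoperimetric hn hw1 hw0 (fun i x => by rw [flipE_apply]; exact hwe i x) hwm hΩ hΩb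
      (fun i x hx => by rw [flipE_apply]; exact hΩs i x hx) v (fun j => ⟨(hv j).1, (hv j).2.1⟩) hl hA
  · intro n hn φ R r Ω A hr hrR hφ h0 hd hΩ hΩr hΩs hP
    obtain ⟨v, hv, hl, hA⟩ := hP
    exact isoperimetric_radial hn hr hrR hφ h0 hd hΩ hΩr
      (fun i x hx => by rw [flipE_apply]; exact hΩs i x hx) v (fun j => ⟨(hv j).1, (hv j).2.2⟩) hl hA
  · intro n hn φ R r Ω A hr hrR hφ h0 hd hΩ hΩr hP
    obtain ⟨v, hv, hl, hA⟩ := hP
    exact isoperimetric_radial_all hn hr hrR hφ h0 hd hΩ hΩr v (fun j => ⟨(hv j).1, (hv j).2.2⟩) hl hA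

end Vale.Agent.Results.P219.SymmetricDomains
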